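import Mathlib

/-!
A sum of roots of unity of order dividing `3 ^ k + 1` never has squared modulus six: modulo three,
complex conjugation is a power of Frobenius on such sums. Hence three mutually unbiased bases of
`ℂ ^ 6` cannot have both transition matrices of Butson type of such an order.
-/

namespace Vale.Agent.P355

open Finset
open scoped ComplexConjugate

/-- Frobenius on a finite sum in a ring where three vanishes. -/
theorem sum_pow_three_pow {Q ι : Type*} [CommRing Q] (h3 : (3 : Q) = 0) (s : Finset ι) (f : ι → Q)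
    (m : ℕ) : (∑ i ∈ s, f i) ^ 3 ^ m = ∑ i ∈ s, f i ^ 3 ^ m := by
  have hadd : ∀ a b : Q, (a + b) ^ 3 = a ^ 3 + b ^ 3 := fun a b => by
    linear_combination (a ^ 2 * b + a * b ^ 2) * h3
  have h1 : ∀ g : ι → Q, (∑ i ∈ s, g i) ^ 3 = ∑ i ∈ s, g i ^ 3 := by
    classical
    intro g
    induction s using Finset.induction_on with
    | empty => simp
    | insert a t ha ih => rw [sum_insert ha, sum_insert ha, hadd, ih]
  induction m with
  | zero => simp
  | succ m ih => rw [pow_succ, pow_mul, ih, h1]; simp_rw [← pow_mul]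

/-- If `k` is positive then a sum of roots of unity times its conjugate, here written with the
exponent `3 ^ k`, is a multiple of three only if both factors are. -/
theorem three_dvd {R ι : Type*} [CommRing R] (s : Finset ι) (u : ι → R) {k : ℕ} (hk : 1 ≤ k)
    (hu : ∀ i ∈ s, u i ^ (3 ^ k + 1) = 1) (h : (3 : R) ∣ (∑ i ∈ s, u i) * ∑ i ∈ s, u i ^ 3 ^ k) :
    (3 : R) ∣ ∑ i ∈ s, u i ∧ (3 : R) ∣ ∑ i ∈ s, u i ^ 3 ^ k := by
  have h3 : (3 : R ⧸ Ideal.span {(3 : R)}) = 0 := by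
    rw [← map_ofNat (Ideal.Quotient.mk (Ideal.span {(3 : R)})) 3, Ideal.Quotient.eq_zero_iff_dvd]
  simp only [← Ideal.Quotient.eq_zero_iff_dvd, map_sum, map_mul, map_pow] at h ⊢
  set v := fun i => Ideal.Quotient.mk (Ideal.span {(3 : R)}) (u i)
  have hv : ∀ i ∈ s, v i ^ (3 ^ k + 1) = 1 := fun i hi => by
    simp only [v, ← map_pow, hu i hi, map_one]
  rw [← sum_pow_three_pow h3, ← pow_succ'] at h
  have hsq : ∀ i ∈ s, v i ^ 3 ^ (k + k) = v i := fun i hi => by
    obtain ⟨t, ht⟩ : ∃ t, 3 ^ (k + k) = (3 ^ k + 1) * t + 1 := by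
      refine ⟨3 ^ k - 1, ?_⟩
      obtain ⟨a, ha⟩ : ∃ a, 3 ^ k = a + 1 := ⟨3 ^ k - 1, by
        have := Nat.one_le_pow k 3 (by norm_num); omega⟩
      rw [pow_add, ha, Nat.add_sub_cancel]; ring
    rw [ht, pow_succ, pow_mul, hv i hi, one_pow, one_mul]
  have hle : 3 ^ k + 1 ≤ 3 ^ (k + k) := Nat.succ_le_of_lt
    (Nat.pow_lt_pow_right (by norm_num) (by omega))
  have hzero : ∑ i ∈ s, v i = 0 := by
    rw [← sum_congr rfl hsq, ← sum_pow_three_pow h3]
    exact pow_eq_zero_of_le hle h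
  exact ⟨hzero, by rw [← sum_pow_three_pow h3, hzero, zero_pow (by positivity)]⟩

/-- A sum of complex roots of unity of order dividing `3 ^ k + 1` has squared modulus other than
six. -/
theorem normSq_ne_six {ι : Type*} (s : Finset ι) (u : ι → ℂ) {k : ℕ} (hk : 1 ≤ k)
    (hu : ∀ i, u i ^ (3 ^ k + 1) = 1) : Complex.normSq (∑ i ∈ s, u i) ≠ 6 := by
  intro h
  have hint : ∀ i, IsIntegral ℤ (u i) := fun i =>
    IsIntegral.of_pow (n := 3 ^ k + 1) (by positivity) (by rw [hu i]; exact isIntegral_one)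
  let w : ι → integralClosure ℤ ℂ := fun i => ⟨u i, hint i⟩
  have hconj : ∀ i, conj (u i) = u i ^ 3 ^ k := fun i => by
    have h1 : u i * u i ^ 3 ^ k = 1 := by rw [← pow_succ']; exact hu i
    rw [← Complex.inv_eq_conj (Complex.norm_eq_one_of_pow_eq_one (hu i) (by positivity))]
    exact inv_eq_of_mul_eq_one_right h1
  have hC : (∑ i ∈ s, u i) * ∑ i ∈ s, u i ^ 3 ^ k = 6 := by
    simp_rw [← hconj, ← map_sum, Complex.mul_conj, h]; norm_num
  let φ := (integralClosure ℤ ℂ).val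
  have hR : (∑ i ∈ s, w i) * ∑ i ∈ s, w i ^ 3 ^ k = 6 :=
    Subtype.val_injective (show φ ((∑ i ∈ s, w i) * ∑ i ∈ s, w i ^ 3 ^ k) = φ 6 by
      simp only [map_mul, map_sum, map_pow, map_ofNat]; simpa [φ, w] using hC)
  obtain ⟨⟨a, ha⟩, b, hb⟩ := three_dvd s w hk (fun i _ => Subtype.ext (by simp [w, hu i]))
    (by rw [hR]; exact ⟨2, by norm_num⟩)
  rw [ha, hb] at hR
  have h' : IsIntegral ℤ (algebraMap ℚ ℂ (2 / 3)) := by
    have hab : (3 : ℂ) * a * (3 * b) = 6 := by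
      simpa only [map_mul, map_ofNat, φ, Subalgebra.coe_val] using congrArg φ hR
    have heq : algebraMap ℚ ℂ (2 / 3) = ((a * b : integralClosure ℤ ℂ) : ℂ) := by
      rw [map_div₀, map_ofNat, map_ofNat, MulMemClass.coe_mul]
      linear_combination (1 / 9 : ℂ) * hab.symm
    rw [heq]
    exact (a * b).2
  obtain ⟨z, hz⟩ := IsIntegrallyClosed.isIntegral_iff.1
    ((isIntegral_algebraMap_iff (algebraMap ℚ ℂ).injective).1 h')
  rw [eq_intCast, eq_div_iff (by norm_num : (3 : ℚ) ≠ 0)] at hz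
  have : z * 3 = 2 := by exact_mod_cast hz
  omega

/-- Three bases of `ℂ ^ 6` with both transition matrices of Butson type. -/
theorem not_unbiased {E : Type*} [NormedAddCommGroup E] [InnerProductSpace ℂ E] {n k : ℕ}
    (hn : n ∣ 3 ^ k + 1) (b : OrthonormalBasis (Fin 6) ℂ E) (x y : E)
    (hx : ∀ i, ((Real.sqrt 6 : ℝ) * inner ℂ (b i) x : ℂ) ^ n = 1)
    (hy : ∀ i, ((Real.sqrt 6 : ℝ) * inner ℂ (b i) y : ℂ) ^ n = 1) :
    ‖inner ℂ x y‖ ^ 2 ≠ 1 / 6 := by
  obtain ⟨k', hk', hn'⟩ : ∃ k', 1 ≤ k' ∧ n ∣ 3 ^ k' + 1 := by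
    rcases Nat.eq_zero_or_pos k with rfl | hk
    · exact ⟨1, le_rfl, hn.trans (by norm_num)⟩
    · exact ⟨k, hk, hn⟩
  set u : Fin 6 → ℂ := fun i =>
    conj ((Real.sqrt 6 : ℝ) * inner ℂ (b i) x : ℂ) * ((Real.sqrt 6 : ℝ) * inner ℂ (b i) y)
  have hu : ∀ i, u i ^ (3 ^ k' + 1) = 1 := fun i => by
    obtain ⟨t, ht⟩ := hn'
    rw [ht, pow_mul]
    simp only [u, mul_pow, ← map_pow, hx i, hy i, map_one, one_mul, one_pow]
  intro h
  refine normSq_ne_six univ u hk' hu ?_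
  have hs : ((Real.sqrt 6 : ℝ) : ℂ) * (Real.sqrt 6 : ℝ) = 6 := by
    rw [← Complex.ofReal_mul, Real.mul_self_sqrt (by norm_num)]; norm_num
  have hz : ∑ i, u i = 6 * inner ℂ x y := by
    rw [← b.sum_inner_mul_inner x y, mul_sum]
    refine sum_congr rfl fun i _ => ?_
    simp only [u, map_mul, Complex.conj_ofReal, inner_conj_symm]
    linear_combination inner ℂ x (b i) * inner ℂ (b i) y * hs
  rw [hz, map_mul, Complex.normSq_eq_norm_sq (inner ℂ x y), h]
  norm_num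

end Vale.Agent.P355
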